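import Mathlib

/-! Elementary lattice point counts in boxes. -/

namespace Vale.Agent.P054

open Finset

/-- Integer points of the box `[-T, T]^k`. -/
noncomputable def box (k T : ℕ) : Finset (Fin k → ℤ) := Fintype.piFinset fun _ => Icc (-(T : ℤ)) T

theorem card_box_le (k T : ℕ) (hT : 1 ≤ T) : (box k T).card ≤ (3 * T) ^ k := by
  rw [box, Fintype.card_piFinset_const, Int.card_Icc]
  apply Nat.pow_le_pow_left
  omega

/-- An arithmetic progression of difference `g` in `[-T, T]` has at most `2T/g + 1` terms. -/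
theorem card_progression (T g : ℕ) (hg : 0 < g) (S : Finset ℤ) (hS : S ⊆ Icc (-(T : ℤ)) T)
    (hd : ∀ x ∈ S, ∀ y ∈ S, (g : ℤ) ∣ x - y) : g * S.card ≤ 2 * T + g := by
  rcases S.eq_empty_or_nonempty with h | h
  · simp [h]
  set x₀ := S.min' h
  have hx₀ := S.min'_mem h
  have hsub : S ⊆ (range (2 * T / g + 1)).image (fun k : ℕ => x₀ + (g : ℤ) * k) := by
    intro x hx
    obtain ⟨k, hk⟩ := hd x hx x₀ hx₀
    have h1 := mem_Icc.1 (hS hx)
    have h2 := mem_Icc.1 (hS hx₀)
    have h3 : x₀ ≤ x := S.min'_le x hx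
    have hk0 : 0 ≤ k := nonneg_of_mul_nonneg_right (a := (g : ℤ)) (by omega) (by exact_mod_cast hg)
    lift k to ℕ using hk0
    refine mem_image.2 ⟨k, mem_range.2 ?_, by omega⟩
    rw [Nat.lt_succ_iff, Nat.le_div_iff_mul_le hg]
    have : ((g * k : ℕ) : ℤ) ≤ (2 * T : ℕ) := by push_cast; omega
    rw [mul_comm]; exact_mod_cast this
  have := (card_le_card hsub).trans card_image_le
  rw [card_range] at this
  calc g * S.card ≤ g * (2 * T / g + 1) := Nat.mul_le_mul_left _ this
    _ = g * (2 * T / g) + g := by ring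
    _ ≤ 2 * T + g := by have := Nat.mul_div_le (2 * T) g; omega

/-- A primitive affine congruence modulo `M` has few solutions in a box. -/
theorem card_congr_le (T : ℕ) (hT : 1 ≤ T) : ∀ (k M : ℕ) (a : Fin k → ℤ) (r : ℤ), 0 < M →
    (∀ e : ℕ, e ∣ M → (∀ i, (e : ℤ) ∣ a i) → e = 1) →
    ((box k T).filter (fun v => (M : ℤ) ∣ ∑ i, a i * v i + r)).card * M * T
      ≤ 5 ^ k * T ^ k * (T + M) := by
  intro k
  induction k with
  | zero =>
    intro M a r hM hp
    have hM1 : M = 1 := hp M dvd_rfl (fun i => i.elim0)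
    subst hM1
    have h := (card_filter_le (box 0 T) fun v => ((1 : ℕ) : ℤ) ∣ ∑ i, a i * v i + r).trans
      (card_box_le 0 T hT)
    simp at h ⊢
    nlinarith
  | succ k ih =>
    intro M a r hM hp
    set g : ℕ := Nat.gcd M (univ.gcd fun i : Fin k => (a i.succ).natAbs) with hg_def
    have hgM : g ∣ M := Nat.gcd_dvd_left _ _
    have hga : ∀ i : Fin k, (g : ℤ) ∣ a i.succ := fun i =>
      Int.natCast_dvd.2 ((Nat.gcd_dvd_right _ _).trans (Finset.gcd_dvd (mem_univ i)))
    have hg : 0 < g := Nat.gcd_pos_of_pos_left _ hM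
    obtain ⟨M', hM'⟩ := hgM
    have hM'0 : 0 < M' := Nat.pos_of_ne_zero (by rintro rfl; simp at hM'; omega)
    choose a' ha' using hga
    have hp' : ∀ e : ℕ, e ∣ M' → (∀ i, (e : ℤ) ∣ a' i) → e = 1 := by
      intro e he he'
      have h1 : g * e ∣ g := by
        refine Nat.dvd_gcd (hM' ▸ Nat.mul_dvd_mul_left g he) (Finset.dvd_gcd fun i _ => ?_)
        rw [← Int.natCast_dvd, ha' i]
        push_cast
        exact mul_dvd_mul_left _ (he' i)
      have h2 := Nat.le_of_dvd hg h1
      have he0 : e ≠ 0 := by rintro rfl; simp at he; omega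
      have : e ≤ 1 := by
        by_contra hc
        have : g * 2 ≤ g * e := Nat.mul_le_mul_left g (by omega)
        omega
      omega
    set W : Finset ℤ :=
      (Icc (-(T : ℤ)) T).filter (fun x => (g : ℤ) ∣ a 0 * x + r) with hW
    have hcop : Int.gcd (a 0) g = 1 := by
      apply hp
      · exact (Int.natCast_dvd_natCast.1 (Int.gcd_dvd_right (a 0) g)).trans ⟨M', hM'⟩
      · intro i
        refine Fin.cases ?_ (fun j => ?_) i
        · exact Int.gcd_dvd_left _ _
        · exact (Int.gcd_dvd_right (a 0) g).trans (Dvd.intro _ (ha' j).symm)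
    have hWc : g * W.card ≤ 2 * T + g := by
      refine card_progression T g hg W (filter_subset _ _) fun x hx y hy => ?_
      have hd := dvd_sub (mem_filter.1 hx).2 (mem_filter.1 hy).2
      rw [show a 0 * x + r - (a 0 * y + r) = a 0 * (x - y) by ring] at hd
      exact Int.dvd_of_dvd_mul_right_of_gcd_one hd (by rw [Int.gcd_comm]; exact hcop)
    have hsub : (box (k + 1) T).filter (fun v => (M : ℤ) ∣ ∑ i, a i * v i + r) ⊆
        W.biUnion (fun x => ((box k T).filter
          (fun v => (M' : ℤ) ∣ ∑ i, a' i * v i + (a 0 * x + r) / g)).image (Fin.cons x)) := by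
      intro v hv
      obtain ⟨hvb, hvd⟩ := mem_filter.1 hv
      rw [box, Fintype.mem_piFinset] at hvb
      rw [Fin.sum_univ_succ] at hvd
      have he : (∑ i : Fin k, a i.succ * v i.succ) = (g : ℤ) * ∑ i, a' i * v i.succ := by
        rw [mul_sum]; exact sum_congr rfl fun i _ => by rw [ha']; ring
      rw [he, hM'] at hvd
      push_cast at hvd
      have hdg : (g : ℤ) ∣ a 0 * v 0 + r := by
        have h1 : (g : ℤ) ∣ a 0 * v 0 + (g : ℤ) * (∑ i, a' i * v i.succ) + r :=
          (dvd_mul_right _ _).trans hvd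
        have h2 := dvd_sub h1 (dvd_mul_right (g : ℤ) (∑ i, a' i * v i.succ))
        rwa [show a 0 * v 0 + (g : ℤ) * (∑ i, a' i * v i.succ) + r
          - (g : ℤ) * (∑ i, a' i * v i.succ) = a 0 * v 0 + r by ring] at h2
      obtain ⟨q, hq⟩ := hdg
      refine mem_biUnion.2 ⟨v 0, mem_filter.2 ⟨hvb 0, ⟨q, hq⟩⟩, ?_⟩
      refine mem_image.2 ⟨fun i => v i.succ, mem_filter.2 ⟨?_, ?_⟩, ?_⟩
      · simp [box, Fintype.mem_piFinset]; exact fun i => mem_Icc.1 (hvb i.succ)
      · rw [hq, Int.mul_ediv_cancel_left _ (by exact_mod_cast hg.ne')]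
        refine (mul_dvd_mul_iff_left (show (g : ℤ) ≠ 0 by exact_mod_cast hg.ne')).1 ?_
        refine hvd.trans (dvd_of_eq ?_)
        linear_combination hq
      · exact Fin.cons_self_tail v
    have hcard := (card_le_card hsub).trans card_biUnion_le
    calc _ ≤ (∑ x ∈ W, ((box k T).filter
          (fun v => (M' : ℤ) ∣ ∑ i, a' i * v i + (a 0 * x + r) / g)).card) * M * T := by
            refine Nat.mul_le_mul_right _ (Nat.mul_le_mul_right _ (hcard.trans (sum_le_sum ?_)))
            exact fun x _ => card_image_le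
      _ ≤ ∑ x ∈ W, g * (5 ^ k * T ^ k * (T + M')) := by
            rw [sum_mul, sum_mul]
            refine sum_le_sum fun x _ => ?_
            have := ih M' a' ((a 0 * x + r) / g) hM'0 hp'
            rw [hM']
            calc _ = g * (((box k T).filter
                  (fun v => (M' : ℤ) ∣ ∑ i, a' i * v i + (a 0 * x + r) / g)).card * M' * T) := by
                    ring
              _ ≤ _ := Nat.mul_le_mul_left _ this
      _ = (g * W.card) * (5 ^ k * T ^ k * (T + M')) := by rw [sum_const, smul_eq_mul]; ring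
      _ ≤ (2 * T + g) * (5 ^ k * T ^ k * (T + M')) := Nat.mul_le_mul_right _ hWc
      _ ≤ 5 ^ (k + 1) * T ^ (k + 1) * (T + M) := by
            have h1 : g ≤ M := Nat.le_of_dvd hM ⟨M', hM'⟩
            have h2 : M' ≤ M := Nat.le_of_dvd hM ⟨g, by rw [hM']; ring⟩
            have h3 : (2 * T + g) * (T + M') ≤ 5 * T * (T + M) := by
              have h4 : g * M' = M := hM'.symm
              nlinarith
            calc (2 * T + g) * (5 ^ k * T ^ k * (T + M'))
                = 5 ^ k * T ^ k * ((2 * T + g) * (T + M')) := by ring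
              _ ≤ 5 ^ k * T ^ k * (5 * T * (T + M)) := Nat.mul_le_mul_left _ h3
              _ = _ := by ring

/-- A primitive linear equation has few solutions in a box. -/
theorem card_hyperplane_le (T k : ℕ) (hT : 1 ≤ T) (w : Fin (k + 1) → ℤ) (j : Fin (k + 1))
    (hj : w j ≠ 0) (hp : ∀ e : ℕ, (∀ i, (e : ℤ) ∣ w i) → e = 1) :
    ((box (k + 1) T).filter (fun v => ∑ i, w i * v i = 0)).card * (w j).natAbs * T
      ≤ 5 ^ k * T ^ k * (T + (w j).natAbs) := by
  refine le_trans ?_ (card_congr_le T hT k (w j).natAbs (fun i => w (j.succAbove i)) 0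
    (by omega) fun e he he' => hp e ?_)
  swap
  · intro i
    refine Fin.succAboveCases j ?_ he' i
    exact Int.natCast_dvd.2 he
  refine Nat.mul_le_mul_right _ (Nat.mul_le_mul_right _ ?_)
  refine card_le_card_of_injOn (fun v i => v (j.succAbove i)) ?_ ?_
  · intro v hv
    simp only [coe_filter, Set.mem_ofPred_eq] at hv ⊢
    obtain ⟨hb, he⟩ := hv
    rw [box, Fintype.mem_piFinset] at hb
    refine ⟨by rw [box, Fintype.mem_piFinset]; exact fun i => hb _, ?_⟩
    rw [Fin.sum_univ_succAbove _ j] at he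
    rw [add_zero, show (∑ i, w (j.succAbove i) * v (j.succAbove i)) = -(w j * v j) by
      linarith, dvd_neg]
    exact Int.natAbs_dvd.2 (dvd_mul_right _ _)
  · intro v hv v' hv' h
    simp only [coe_filter, Set.mem_ofPred_eq] at hv hv'
    have hs : ∀ i, v (j.succAbove i) = v' (j.succAbove i) := congrFun h
    have e1 := hv.2
    have e2 := hv'.2
    rw [Fin.sum_univ_succAbove _ j] at e1 e2
    simp only [hs] at e1
    have : w j * v j = w j * v' j := by linarith
    funext i
    exact Fin.succAboveCases j (mul_left_cancel₀ hj this) hs i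

end Vale.Agent.P054
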