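import Mathlib
import Vale.Agent.P054.Count

/-! The number of pairs of orthogonal integer vectors in a box, uniformly in the form. -/

namespace Vale.Agent.P054

open Finset

variable {k : ℕ}

/-- Sup norm, as a natural number. -/
def hh (x : Fin (k + 1) → ℤ) : ℕ := univ.sup fun i => (x i).natAbs

/-- Content of an integer vector. -/
def gc (x : Fin (k + 1) → ℤ) : ℕ := univ.gcd fun i => (x i).natAbs

/-- Primitive part of an integer vector. -/
def pr (x : Fin (k + 1) → ℤ) : Fin (k + 1) → ℤ := fun i => x i / gc x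

theorem le_hh (x : Fin (k + 1) → ℤ) (i : Fin (k + 1)) : (x i).natAbs ≤ hh x :=
  le_sup (f := fun i => (x i).natAbs) (mem_univ i)

theorem exists_hh (x : Fin (k + 1) → ℤ) : ∃ i, (x i).natAbs = hh x := by
  obtain ⟨i, -, hi⟩ := exists_mem_eq_sup univ univ_nonempty fun i => (x i).natAbs
  exact ⟨i, hi.symm⟩

theorem hh_pos {x : Fin (k + 1) → ℤ} (hx : x ≠ 0) : 0 < hh x := by
  obtain ⟨i, hi⟩ := Function.ne_iff.1 hx
  have := le_hh x i
  have h0 : x i ≠ 0 := hi
  omega

theorem gc_pos {x : Fin (k + 1) → ℤ} (hx : x ≠ 0) : 0 < gc x := by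
  refine Nat.pos_of_ne_zero fun h => hx (funext fun i => ?_)
  have := (Finset.gcd_eq_zero_iff.1 h) i (mem_univ i)
  simpa using this

theorem gc_mul_pr (x : Fin (k + 1) → ℤ) (i : Fin (k + 1)) : (gc x : ℤ) * pr x i = x i :=
  Int.mul_ediv_cancel' (Int.natCast_dvd.2 (Finset.gcd_dvd (mem_univ i)))

theorem pr_primitive {x : Fin (k + 1) → ℤ} (hx : x ≠ 0) (e : ℕ)
    (he : ∀ i, (e : ℤ) ∣ pr x i) : e = 1 := by
  have hg := gc_pos hx
  have h1 : gc x * e ∣ gc x := Finset.dvd_gcd fun i _ => by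
    rw [← Int.natCast_dvd]
    push_cast
    conv_rhs => rw [← gc_mul_pr x i]
    exact mul_dvd_mul_left _ (he i)
  exact Nat.dvd_one.1 (Nat.dvd_of_mul_dvd_mul_left hg (by simpa using h1))

theorem pr_ne_zero {x : Fin (k + 1) → ℤ} (hx : x ≠ 0) : pr x ≠ 0 := fun h =>
  hx (funext fun i => by rw [← gc_mul_pr x i, h]; simp)

theorem hh_pr (x : Fin (k + 1) → ℤ) : gc x * hh (pr x) ≤ hh x := by
  obtain ⟨i, hi⟩ := exists_hh (pr x)
  calc gc x * hh (pr x) = ((gc x : ℤ) * pr x i).natAbs := by rw [Int.natAbs_mul, hi]; simp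
    _ ≤ hh x := by rw [gc_mul_pr]; exact le_hh x i

theorem eq_of_smul_eq {p p' : Fin (k + 1) → ℤ}
    (hp : ∀ e : ℕ, (∀ i, (e : ℤ) ∣ p i) → e = 1) (hp' : ∀ e : ℕ, (∀ i, (e : ℤ) ∣ p' i) → e = 1)
    {c c' : ℕ} (hc : 0 < c) (h : ∀ i, (c : ℤ) * p i = (c' : ℤ) * p' i) : p = p' := by
  have g1 : gc p = 1 := hp _ fun i => Int.natCast_dvd.2 (Finset.gcd_dvd (mem_univ i))
  have g2 : gc p' = 1 := hp' _ fun i => Int.natCast_dvd.2 (Finset.gcd_dvd (mem_univ i))
  have e : (univ.gcd fun i => c * (p i).natAbs) = univ.gcd fun i => c' * (p' i).natAbs :=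
    Finset.gcd_congr rfl fun i _ => by simpa [Int.natAbs_mul] using congrArg Int.natAbs (h i)
  rw [Finset.gcd_mul_left, Finset.gcd_mul_left] at e
  simp only [gc] at g1 g2
  rw [g1, g2] at e
  simp at e
  subst e
  exact funext fun i => mul_left_cancel₀ (by exact_mod_cast hc.ne') (h i)

/-- Vectors of sup norm `s`. -/
theorem card_shell_le (F : Finset (Fin (k + 1) → ℤ)) (s : ℕ) (hs : 1 ≤ s) :
    (F.filter fun x => hh x = s).card ≤ 2 * (k + 1) * (3 * s) ^ k := by
  classical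
  have hsub : (F.filter fun x => hh x = s) ⊆
      (univ : Finset (Fin (k + 1))).biUnion fun j =>
        (({(s : ℤ), -(s : ℤ)} : Finset ℤ) ×ˢ box k s).image fun q => j.insertNth q.1 q.2 := by
    intro x hx
    obtain ⟨-, hxs⟩ := mem_filter.1 hx
    obtain ⟨j, hj⟩ := exists_hh x
    refine mem_biUnion.2 ⟨j, mem_univ j, mem_image.2 ⟨(x j, j.removeNth x), mem_product.2 ⟨?_, ?_⟩,
      Fin.insertNth_self_removeNth j x⟩⟩
    · rw [mem_insert, mem_singleton]; omega
    · rw [box, Fintype.mem_piFinset]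
      intro i
      have := le_hh x (j.succAbove i)
      simp only [Fin.removeNth_apply, mem_Icc]
      omega
  calc _ ≤ _ := card_le_card hsub
    _ ≤ _ := card_biUnion_le
    _ ≤ ∑ _j : Fin (k + 1), 2 * (3 * s) ^ k := sum_le_sum fun j _ => by
        refine card_image_le.trans ?_
        rw [card_product]
        exact Nat.mul_le_mul card_le_two (card_box_le k s hs)
    _ = _ := by simp; ring

/-- Inverse squares of norms of few nonzero integer vectors. -/
theorem sum_inv_sq_le (hk : 2 ≤ k) (T : ℕ) (hT : 1 ≤ T) (F : Finset (Fin (k + 1) → ℤ))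
    (h0 : (0 : Fin (k + 1) → ℤ) ∉ F) (hF : F.card ≤ (3 * T) ^ (k + 1)) :
    ∑ x ∈ F, (1 : ℝ) / (hh x : ℝ) ^ 2 ≤
      (2 * (k + 1) * 3 ^ k + 3 ^ (k + 1)) * (T : ℝ) ^ (k - 1) := by
  classical
  obtain ⟨l, rfl⟩ : ∃ l, k = l + 2 := ⟨k - 2, by omega⟩
  rw [← sum_filter_add_sum_filter_not F (fun x => hh x ≤ T), add_mul]
  have hT0 : (0 : ℝ) < T := by exact_mod_cast hT
  apply add_le_add
  · rw [← sum_fiberwise_of_maps_to (g := hh) (t := Icc 1 T) (fun x hx => by
      rw [mem_filter] at hx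
      exact mem_Icc.2 ⟨hh_pos (fun h => h0 (h ▸ hx.1)), hx.2⟩)]
    calc _ ≤ ∑ s ∈ Icc 1 T, (2 * ((l + 2 : ℕ) + 1) * 3 ^ (l + 2) * (T : ℝ) ^ l) := by
          refine sum_le_sum fun s hs => ?_
          obtain ⟨hs1, hsT⟩ := mem_Icc.1 hs
          rw [sum_congr rfl fun x hx => by rw [(mem_filter.1 hx).2], sum_const, nsmul_eq_mul]
          have hc := card_shell_le (F.filter fun x => hh x ≤ T) s hs1
          have hc' : (((F.filter fun x => hh x ≤ T).filter fun x => hh x = s).card : ℝ) ≤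
              2 * ((l + 2 : ℕ) + 1) * (3 * (s : ℝ)) ^ (l + 2) := by exact_mod_cast hc
          have hs0 : (0 : ℝ) < s := by exact_mod_cast hs1
          calc _ ≤ 2 * ((l + 2 : ℕ) + 1) * (3 * (s : ℝ)) ^ (l + 2) * (1 / (s : ℝ) ^ 2) :=
                mul_le_mul_of_nonneg_right hc' (by positivity)
            _ = 2 * ((l + 2 : ℕ) + 1) * 3 ^ (l + 2) * (s : ℝ) ^ l := by field_simp; ring
            _ ≤ _ := mul_le_mul_of_nonneg_left
                (pow_le_pow_left₀ hs0.le (by exact_mod_cast hsT) l) (by positivity)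
      _ = _ := by
          rw [sum_const, Nat.card_Icc, nsmul_eq_mul, show l + 2 - 1 = l + 1 from by omega]
          push_cast
          ring
  · calc ∑ x ∈ F.filter (fun x => ¬ hh x ≤ T), (1 : ℝ) / (hh x : ℝ) ^ 2
        ≤ ∑ _x ∈ F.filter (fun x => ¬ hh x ≤ T), (1 : ℝ) / (T : ℝ) ^ 2 := by
          refine sum_le_sum fun x hx => ?_
          have : T ≤ hh x := le_of_lt (not_le.1 (mem_filter.1 hx).2)
          exact one_div_le_one_div_of_le (by positivity)
            (pow_le_pow_left₀ hT0.le (by exact_mod_cast this) 2)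
      _ ≤ ((3 * T) ^ (l + 2 + 1) : ℕ) * ((1 : ℝ) / (T : ℝ) ^ 2) := by
          rw [sum_const, nsmul_eq_mul]
          exact mul_le_mul_of_nonneg_right
            (by exact_mod_cast (card_filter_le _ _).trans hF) (by positivity)
      _ = _ := by
          rw [show l + 2 - 1 = l + 1 from by omega]
          push_cast
          field_simp
          ring

/-- Pairs of vectors in a box orthogonal for a nondegenerate integer bilinear form. -/
theorem energy_le (hk : 2 ≤ k) : ∃ C : ℝ, 0 < C ∧ ∀ (T : ℕ), 1 ≤ T →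
    ∀ A : (Fin (k + 1) → ℤ) →+ (Fin (k + 1) → ℤ), Function.Injective A →
    (((box (k + 1) T ×ˢ box (k + 1) T).filter
      (fun p => ∑ i, A p.1 i * p.2 i = 0)).card : ℝ) ≤ C * (T : ℝ) ^ (2 * k) := by
  classical
  set K : ℝ := 2 * (k + 1) * 3 ^ k + 3 ^ (k + 1) with hK
  have hK0 : 0 < K := by positivity
  refine ⟨3 ^ (k + 1) + 5 ^ k * 3 ^ (k + 1) + 5 ^ k * K, by positivity, fun T hT A hA => ?_⟩
  obtain ⟨l, rfl⟩ : ∃ l, k = l + 2 := ⟨k - 2, by omega⟩
  set D := box (l + 2 + 1) T with hD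
  set N : (Fin (l + 2 + 1) → ℤ) → ℕ :=
    fun u => (D.filter fun v => ∑ i, A u i * v i = 0).card with hN
  have hT0 : (0 : ℝ) < T := by exact_mod_cast hT
  have hT1 : (1 : ℝ) ≤ T := by exact_mod_cast hT
  have hE : ((D ×ˢ D).filter (fun p => ∑ i, A p.1 i * p.2 i = 0)).card = ∑ u ∈ D, N u := by
    simp only [hN, card_filter, sum_product]
  have hDc : (D.card : ℝ) ≤ 3 ^ (l + 2 + 1) * (T : ℝ) ^ (l + 2 + 1) := by
    rw [← mul_pow]; exact_mod_cast card_box_le (l + 2 + 1) T hT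
  set U := D.filter (fun u => u ≠ 0) with hU
  set P := U.image pr with hP
  have hPmem : ∀ p ∈ P, p ≠ 0 ∧ ∀ e : ℕ, (∀ i, (e : ℤ) ∣ p i) → e = 1 := by
    intro p hp
    obtain ⟨u, hu, rfl⟩ := mem_image.1 hp
    exact ⟨pr_ne_zero (mem_filter.1 hu).2, pr_primitive (mem_filter.1 hu).2⟩
  have hAne : ∀ u, u ≠ 0 → A u ≠ 0 := fun u hu h => hu (hA (by rw [h, map_zero]))
  -- the equation only depends on the primitive part
  have hNle : ∀ u ∈ U, (N u : ℝ) ≤ 5 ^ (l + 2) *
      ((T : ℝ) ^ (l + 2) / (hh (pr (A (pr u))) : ℝ) + (T : ℝ) ^ (l + 1)) := by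
    intro u hu
    have hu0 := (mem_filter.1 hu).2
    set w := pr (A (pr u)) with hw
    have hAp := hAne _ (pr_ne_zero hu0)
    obtain ⟨j, hj⟩ := exists_hh w
    have hpos : 0 < hh w := hh_pos (pr_ne_zero hAp)
    have hsub : (D.filter fun v => ∑ i, A u i * v i = 0) ⊆
        D.filter fun v => ∑ i, w i * v i = 0 := by
      intro v hv
      obtain ⟨hvD, hv⟩ := mem_filter.1 hv
      refine mem_filter.2 ⟨hvD, ?_⟩
      have he : u = (gc u : ℤ) • pr u := funext fun i => by simp [gc_mul_pr]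
      have he' : ∀ i, A u i = ((gc u : ℤ) * gc (A (pr u))) * w i := fun i => by
        conv_lhs => rw [he, map_zsmul]
        rw [mul_assoc, hw, gc_mul_pr]; simp
      simp only [he', mul_assoc, ← mul_sum] at hv
      have h1 := gc_pos hu0
      have h2 := gc_pos hAp
      rcases mul_eq_zero.1 hv with h | h
      · omega
      · rcases mul_eq_zero.1 h with h | h
        · omega
        · exact h
    have hc := card_hyperplane_le T (l + 2) hT w j (by omega) (pr_primitive hAp)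
    rw [hj] at hc
    have hc1 : ((D.filter fun v => ∑ i, w i * v i = 0).card : ℝ) * hh w * T ≤
        5 ^ (l + 2) * (T : ℝ) ^ (l + 2) * (T + hh w) := by exact_mod_cast hc
    have hw0 : (0 : ℝ) < hh w := by exact_mod_cast hpos
    calc (N u : ℝ) ≤ ((D.filter fun v => ∑ i, w i * v i = 0).card : ℝ) := by
          exact_mod_cast card_le_card hsub
      _ ≤ 5 ^ (l + 2) * (T : ℝ) ^ (l + 2) * (T + hh w) / (hh w * T) := by
          rw [le_div_iff₀ (by positivity), ← mul_assoc]; exact hc1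
      _ = _ := by field_simp; ring
  have hfib : ∀ p ∈ P, ((U.filter fun u => pr u = p).card : ℝ) ≤ (T : ℝ) / hh p := by
    intro p hp
    have hp0 := hh_pos (hPmem p hp).1
    have hsub : (U.filter fun u => pr u = p) ⊆ (Icc 1 (T / hh p)).image (fun c : ℕ => (c : ℤ) • p) := by
      intro u hu
      obtain ⟨huU, rfl⟩ := mem_filter.1 hu
      obtain ⟨huD, hu0⟩ := mem_filter.1 huU
      refine mem_image.2 ⟨gc u, mem_Icc.2 ⟨gc_pos hu0, ?_⟩, funext fun i => by simp [gc_mul_pr]⟩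
      rw [Nat.le_div_iff_mul_le hp0]
      refine (hh_pr u).trans (Finset.sup_le fun i _ => ?_)
      have := Fintype.mem_piFinset.1 huD i
      rw [mem_Icc] at this
      omega
    have := (card_le_card hsub).trans card_image_le
    rw [Nat.card_Icc, Nat.add_sub_cancel] at this
    calc ((U.filter fun u => pr u = p).card : ℝ) ≤ ((T / hh p : ℕ) : ℝ) := by exact_mod_cast this
      _ ≤ _ := Nat.cast_div_le
  have hinj : Set.InjOn (fun p => pr (A p)) P := by
    intro p hp p' hp' h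
    obtain ⟨hp0, hpp⟩ := hPmem p hp
    obtain ⟨hp0', hpp'⟩ := hPmem p' hp'
    refine eq_of_smul_eq hpp hpp' (c := gc (A p')) (c' := gc (A p))
      (gc_pos (hAne _ hp0')) fun i => ?_
    have : A ((gc (A p') : ℤ) • p) = A ((gc (A p) : ℤ) • p') := by
      rw [map_zsmul, map_zsmul]
      funext i
      simp only [Pi.smul_apply, smul_eq_mul]
      rw [← gc_mul_pr (A p) i, ← gc_mul_pr (A p') i]
      simp only at h
      rw [h]; ring
    simpa using congrFun (hA this) i
  have hPc : P.card ≤ (3 * T) ^ (l + 2 + 1) :=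
    card_image_le.trans ((card_filter_le _ _).trans (card_box_le _ T hT))
  have hS1 : ∑ p ∈ P, (1 : ℝ) / (hh p : ℝ) ^ 2 ≤ K * (T : ℝ) ^ (l + 1) :=
    sum_inv_sq_le (by omega) T hT P (fun h => (hPmem 0 h).1 rfl) hPc
  have hS2 : ∑ p ∈ P, (1 : ℝ) / (hh (pr (A p)) : ℝ) ^ 2 ≤ K * (T : ℝ) ^ (l + 1) := by
    rw [← sum_image (f := fun w => (1 : ℝ) / (hh w : ℝ) ^ 2) hinj]
    refine sum_inv_sq_le (by omega) T hT _ (fun h => ?_) (card_image_le.trans hPc)
    obtain ⟨p, hp, h⟩ := mem_image.1 h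
    exact pr_ne_zero (hAne _ (hPmem p hp).1) h
  have hmain : ∑ u ∈ U, (1 : ℝ) / (hh (pr (A (pr u))) : ℝ) ≤ K * (T : ℝ) ^ (l + 2) := by
    rw [← sum_fiberwise_of_maps_to (g := pr) (t := P) fun u hu => mem_image_of_mem _ hu]
    calc _ ≤ ∑ p ∈ P, (T : ℝ) *
          (1 / 2 * (1 / (hh p : ℝ) ^ 2 + 1 / (hh (pr (A p)) : ℝ) ^ 2)) := by
          refine sum_le_sum fun p hp => ?_
          rw [sum_congr rfl fun u hu => by rw [(mem_filter.1 hu).2], sum_const, nsmul_eq_mul]
          calc _ ≤ (T : ℝ) / hh p * (1 / (hh (pr (A p)) : ℝ)) :=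
                mul_le_mul_of_nonneg_right (hfib p hp) (by positivity)
            _ = (T : ℝ) * ((1 / (hh p : ℝ)) * (1 / (hh (pr (A p)) : ℝ))) := by ring
            _ ≤ _ := by
                refine mul_le_mul_of_nonneg_left ?_ hT0.le
                have := two_mul_le_add_sq (1 / (hh p : ℝ)) (1 / (hh (pr (A p)) : ℝ))
                rw [div_pow, div_pow, one_pow] at this
                linarith
      _ ≤ _ := by
          rw [← mul_sum, ← mul_sum, sum_add_distrib, pow_succ (T : ℝ) (l + 1)]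
          nlinarith
  rw [hE]
  push_cast
  rw [← sum_filter_add_sum_filter_not D (fun u => u ≠ 0)]
  have h0part : ∑ u ∈ D.filter (fun u => ¬ u ≠ 0), (N u : ℝ) ≤
      3 ^ (l + 2 + 1) * (T : ℝ) ^ (l + 2 + 1) := by
    calc _ ≤ ∑ _u ∈ ({0} : Finset (Fin (l + 2 + 1) → ℤ)), (D.card : ℝ) := by
          refine le_trans (sum_le_sum fun u _ => ?_) (sum_le_sum_of_subset_of_nonneg ?_ ?_)
          · exact_mod_cast card_filter_le D _
          · intro u hu; simpa using (mem_filter.1 hu).2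
          · intros; positivity
      _ ≤ _ := by simpa using hDc
  have hUpart : ∑ u ∈ U, (N u : ℝ) ≤ 5 ^ (l + 2) * ((T : ℝ) ^ (l + 2) * (K * (T : ℝ) ^ (l + 2)) +
      3 ^ (l + 2 + 1) * (T : ℝ) ^ (l + 2 + 1) * (T : ℝ) ^ (l + 1)) := by
    refine (sum_le_sum hNle).trans ?_
    rw [← mul_sum, sum_add_distrib, sum_const, nsmul_eq_mul]
    simp only [div_eq_mul_inv, ← mul_sum]
    refine mul_le_mul_of_nonneg_left (add_le_add ?_ ?_) (by positivity)
    · refine mul_le_mul_of_nonneg_left ?_ (by positivity)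
      simpa [one_div] using hmain
    · exact mul_le_mul_of_nonneg_right (le_trans (by exact_mod_cast card_filter_le D _) hDc)
        (by positivity)
  have hpow : (T : ℝ) ^ (l + 2 + 1) ≤ (T : ℝ) ^ (2 * (l + 2)) :=
    pow_le_pow_right₀ hT1 (by omega)
  have h3 : (0 : ℝ) < 3 ^ (l + 2 + 1) := by positivity
  calc _ ≤ _ := add_le_add hUpart h0part
    _ = 3 ^ (l + 2 + 1) * (T : ℝ) ^ (l + 2 + 1) +
        (5 ^ (l + 2) * 3 ^ (l + 2 + 1) + 5 ^ (l + 2) * K) * (T : ℝ) ^ (2 * (l + 2)) := by ring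
    _ ≤ _ := by nlinarith [mul_le_mul_of_nonneg_left hpow h3.le]

end Vale.Agent.P054
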