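import Mathlib
import Vale.Agent.P054.Energy

/-! Distinct distances in affine images of grids. -/

namespace Vale.Agent.P054

open Finset

/-- A nondegenerate real matrix has a nondegenerate integer shadow satisfying all its integer
linear relations. -/
theorem exists_integer_shadow {d : ℕ} (B : Matrix (Fin d) (Fin d) ℝ) (hB : B.det ≠ 0) :
    ∃ A : Matrix (Fin d) (Fin d) ℤ, A.det ≠ 0 ∧
      ∀ a : Fin d → Fin d → ℤ, (∑ i, ∑ j, B i j * (a i j : ℝ)) = 0 →
        ∑ i, ∑ j, A i j * a i j = 0 := by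
  classical
  set S : Submodule ℚ ℝ := Submodule.span ℚ (Set.range fun p : Fin d × Fin d => B p.1 p.2) with hS
  have : FiniteDimensional ℚ S := FiniteDimensional.span_of_finite ℚ (Set.finite_range _)
  set b := Module.finBasis ℚ S
  set x : Fin d → Fin d → S := fun i j => ⟨B i j, Submodule.subset_span ⟨(i, j), rfl⟩⟩ with hx
  set M : (Fin (Module.finrank ℚ S) → ℝ) → Matrix (Fin d) (Fin d) ℝ :=
    fun y => Matrix.of fun i j => ∑ k, (b.repr (x i j) k : ℝ) * y k with hM
  have hMb : M (fun k => ((b k : S) : ℝ)) = B := by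
    ext i j
    simp only [hM, Matrix.of_apply]
    have e := congrArg S.subtype (b.sum_repr (x i j))
    simp only [map_sum, map_smul, Submodule.subtype_apply, Rat.smul_def] at e
    exact e
  have hc : Continuous fun y => (M y).det := by
    refine Continuous.matrix_det (continuous_matrix fun i j => ?_)
    simp only [hM, Matrix.of_apply]
    fun_prop
  obtain ⟨q, hq⟩ : ∃ q : Fin (Module.finrank ℚ S) → ℚ, (M fun k => (q k : ℝ)).det ≠ 0 := by
    have hd : DenseRange (fun q : Fin (Module.finrank ℚ S) → ℚ => fun k => (q k : ℝ)) :=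
      DenseRange.piMap fun _ => Rat.denseRange_cast
    obtain ⟨q, hq⟩ := hd.exists_mem_open (isOpen_ne.preimage hc)
      ⟨fun k => ((b k : S) : ℝ), by simpa [hMb] using hB⟩
    exact ⟨q, hq⟩
  set φ : S →ₗ[ℚ] ℚ := b.constr ℚ q with hφ
  set R : Matrix (Fin d) (Fin d) ℚ := Matrix.of fun i j => φ (x i j) with hR
  have hRdet : R.det ≠ 0 := by
    intro h
    apply hq
    have : M (fun k => (q k : ℝ)) = (Rat.castHom ℝ).mapMatrix R := by
      ext i j
      simp [hM, hR, hφ, Module.Basis.constr_apply_fintype, Module.Basis.equivFun_apply]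
    rw [this, ← RingHom.map_det, h, map_zero]
  set N : ℕ := ∏ p : Fin d × Fin d, (R p.1 p.2).den with hN
  have hN0 : N ≠ 0 := Finset.prod_ne_zero_iff.2 fun p _ => (R p.1 p.2).den_nz
  have hint : ∀ i j, ∃ z : ℤ, (z : ℚ) = (N : ℚ) * R i j := by
    intro i j
    obtain ⟨c, hc⟩ := Finset.dvd_prod_of_mem (fun p : Fin d × Fin d => (R p.1 p.2).den)
      (mem_univ (i, j))
    refine ⟨(R i j).num * c, ?_⟩
    rw [hN, hc]
    push_cast
    conv_rhs => rw [mul_comm ((R i j).den : ℚ) c, mul_assoc, Rat.den_mul_eq_num]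
    ring
  choose A hA using hint
  refine ⟨Matrix.of A, ?_, fun a ha => ?_⟩
  · intro h
    apply hRdet
    have hA' : (Int.castRingHom ℚ).mapMatrix (Matrix.of A) = (N : ℚ) • R := by
      ext i j
      simp [hA]
    have := congrArg Matrix.det hA'
    rw [← RingHom.map_det, h, map_zero, Matrix.det_smul] at this
    rcases mul_eq_zero.1 this.symm with h' | h'
    · exact absurd (pow_eq_zero_iff'.1 h').1 (by exact_mod_cast hN0)
    · exact h'
  · have hs : (∑ i, ∑ j, (a i j : ℚ) • x i j) = (0 : S) := by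
      apply Subtype.ext
      simp only [AddSubmonoidClass.coe_finsetSum, SetLike.val_smul, Rat.smul_def, hx,
        ZeroMemClass.coe_zero]
      rw [← ha]
      exact sum_congr rfl fun i _ => sum_congr rfl fun j _ => by push_cast; ring
    have := congrArg φ hs
    simp only [map_sum, map_smul, map_zero, smul_eq_mul] at this
    have : (∑ i, ∑ j, ((Matrix.of A i j * a i j : ℤ) : ℚ)) = 0 := by
      rw [← mul_zero (N : ℚ), ← this, mul_sum]
      refine sum_congr rfl fun i _ => ?_
      rw [mul_sum]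
      exact sum_congr rfl fun j _ => by simp [hA, hR]; ring
    exact_mod_cast this

/-- The distances occurring among the images of `P`. -/
noncomputable def distances {d : ℕ} (f : (Fin d → ℤ) → EuclideanSpace ℝ (Fin d))
    (P : Finset (Fin d → ℤ)) : Finset ℝ :=
  P.offDiag.image fun p => dist (f p.1) (f p.2)

/-- Distinct distances in a subset of an affine image of a grid, uniformly in the affine map. -/
theorem affine_grid_distances {d : ℕ} (hd : 3 ≤ d) : ∃ c : ℝ, 0 < c ∧
    ∀ (T : ℕ), 1 ≤ T → ∀ (L : (Fin d → ℝ) →ₗ[ℝ] EuclideanSpace ℝ (Fin d)), Function.Injective L →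
    ∀ (x₀ : EuclideanSpace ℝ (Fin d)) (P : Finset (Fin d → ℤ)),
      (∀ p ∈ P, ∀ i, |p i| ≤ (T : ℤ)) → 2 ≤ P.card →
      c * (P.card : ℝ) ^ 2 / (T : ℝ) ^ (2 * d - 2) ≤
        (distances (fun p => x₀ + L fun i => (p i : ℝ)) P).card := by
  classical
  obtain ⟨k, rfl⟩ : ∃ k, d = k + 1 := ⟨d - 1, by omega⟩
  obtain ⟨C, hC, henergy⟩ := energy_le (k := k) (by omega)
  set C' : ℝ := C * 4 ^ (2 * k) with hC'
  refine ⟨1 / (2 * C'), by positivity, fun T hT L hL x₀ P hP hn => ?_⟩
  set B : Matrix (Fin (k + 1)) (Fin (k + 1)) ℝ :=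
    Matrix.of fun i j => inner ℝ (L (Pi.single i 1)) (L (Pi.single j 1)) with hB
  have hinner : ∀ a c : Fin (k + 1) → ℝ,
      inner ℝ (L a) (L c) = ∑ i, ∑ j, B i j * (a i * c j) := by
    intro a c
    conv_lhs => rw [pi_eq_sum_univ' a, pi_eq_sum_univ' c]
    simp only [map_sum, map_smul, sum_inner, inner_sum, real_inner_smul_left,
      real_inner_smul_right, hB, Matrix.of_apply]
    rw [sum_comm]
    exact sum_congr rfl fun i _ => sum_congr rfl fun j _ => by ring
  have hBdet : B.det ≠ 0 := by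
    intro h
    obtain ⟨v, hv0, hv⟩ := Matrix.exists_mulVec_eq_zero_iff.2 h
    apply hv0
    refine (map_eq_zero_iff L hL).1 (inner_self_eq_zero (𝕜 := ℝ).1 ?_)
    rw [hinner]
    refine sum_eq_zero fun i _ => ?_
    have := congrFun hv i
    simp only [Matrix.mulVec, dotProduct, Pi.zero_apply] at this
    calc ∑ j, B i j * (v i * v j) = v i * ∑ j, B i j * v j := by
          rw [mul_sum]; exact sum_congr rfl fun j _ => by ring
      _ = 0 := by rw [this, mul_zero]
  obtain ⟨A, hAdet, hA⟩ := exists_integer_shadow B hBdet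
  set Aop : (Fin (k + 1) → ℤ) →+ (Fin (k + 1) → ℤ) :=
    (Matrix.mulVecLin A.transpose).toAddMonoidHom with hAop
  have hAinj : Function.Injective Aop := by
    intro u v h
    by_contra hne
    apply hAdet
    rw [← Matrix.det_transpose]
    refine Matrix.exists_mulVec_eq_zero_iff.1 ⟨u - v, sub_ne_zero.2 hne, ?_⟩
    simp only [hAop, LinearMap.toAddMonoidHom_coe, Matrix.mulVecLin_apply] at h
    rw [Matrix.mulVec_sub, h, sub_self]
  have hAop' : ∀ u v : Fin (k + 1) → ℤ,
      ∑ i, Aop u i * v i = ∑ i, ∑ j, A i j * (u i * v j) := by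
    intro u v
    simp only [hAop, LinearMap.toAddMonoidHom_coe, Matrix.mulVecLin_apply, Matrix.mulVec,
      dotProduct, Matrix.transpose_apply, sum_mul]
    rw [sum_comm]
    exact sum_congr rfl fun i _ => sum_congr rfl fun j _ => by ring
  set f : (Fin (k + 1) → ℤ) → EuclideanSpace ℝ (Fin (k + 1)) :=
    fun p => x₀ + L fun i => (p i : ℝ) with hf
  set g : (Fin (k + 1) → ℤ) × (Fin (k + 1) → ℤ) → ℝ := fun p => dist (f p.1) (f p.2) with hg
  set S := P ×ˢ P with hS
  set G := (S ×ˢ S).filter (fun q => g q.1 = g q.2) with hG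
  -- Cauchy–Schwarz
  have hsum : ∑ y ∈ S.image g, ((S.filter fun s => g s = y).card : ℝ) = (P.card : ℝ) ^ 2 := by
    rw [← Nat.cast_sum, ← card_eq_sum_card_image g S, hS, card_product, sq]; push_cast; ring
  have hsq : ∑ y ∈ S.image g, ((S.filter fun s => g s = y).card : ℝ) ^ 2 = G.card := by
    have hdisj : (S.image g : Set ℝ).PairwiseDisjoint
        (fun y => (S.filter fun s => g s = y) ×ˢ (S.filter fun s => g s = y)) := by
      intro y _ y' _ hyy'
      simp only [Function.onFun, disjoint_left, mem_product, mem_filter]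
      rintro q ⟨⟨-, h1⟩, -⟩ ⟨⟨-, h2⟩, -⟩
      exact hyy' (h1.symm.trans h2)
    have : G = (S.image g).biUnion
        (fun y => (S.filter fun s => g s = y) ×ˢ (S.filter fun s => g s = y)) := by
      ext q
      simp only [hG, mem_filter, mem_product, mem_biUnion, mem_image]
      constructor
      · rintro ⟨⟨h1, h2⟩, h⟩; exact ⟨g q.1, ⟨q.1, h1, rfl⟩, ⟨h1, rfl⟩, h2, h.symm⟩
      · rintro ⟨y, -, ⟨h1, e1⟩, h2, e2⟩; exact ⟨⟨h1, h2⟩, e1.trans e2.symm⟩
    rw [this, card_biUnion hdisj]
    push_cast [card_product]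
    exact sum_congr rfl fun y _ => sq _
  have hCS : ((P.card : ℝ) ^ 2) ^ 2 ≤ ((S.image g).card : ℝ) * G.card := by
    rw [← hsum, ← hsq]; exact sq_sum_le_card_mul_sum_sq
  -- the energy
  set E := ((box (k + 1) (4 * T) ×ˢ box (k + 1) (4 * T)).filter
      (fun p => ∑ i, Aop p.1 i * p.2 i = 0)) with hE
  have hGE : G.card ≤ P.card ^ 2 * E.card := by
    set τ : ((Fin (k + 1) → ℤ) × (Fin (k + 1) → ℤ)) × ((Fin (k + 1) → ℤ) × (Fin (k + 1) → ℤ)) →
        (Fin (k + 1) → ℤ) × (Fin (k + 1) → ℤ) :=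
      fun q => ((q.1.1 - q.1.2) - (q.2.1 - q.2.2), (q.1.1 - q.1.2) + (q.2.1 - q.2.2)) with hτ
    refine card_le_mul_card_image_of_maps_to (f := τ) ?_ _ ?_
    · intro q hq
      simp only [hG, hS, mem_filter, mem_product] at hq
      obtain ⟨⟨⟨h1, h2⟩, h3, h4⟩, hg'⟩ := hq
      have hbd := fun i => And.intro (hP _ h1 i) (And.intro (hP _ h2 i) (And.intro (hP _ h3 i) (hP _ h4 i)))
      refine mem_filter.2 ⟨mem_product.2 ⟨?_, ?_⟩, ?_⟩
      · rw [box, Fintype.mem_piFinset]; intro i
        obtain ⟨a1, a2, a3, a4⟩ := hbd i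
        rw [abs_le] at a1 a2 a3 a4
        simp only [hτ, Pi.sub_apply, mem_Icc]; push_cast; omega
      · rw [box, Fintype.mem_piFinset]; intro i
        obtain ⟨a1, a2, a3, a4⟩ := hbd i
        rw [abs_le] at a1 a2 a3 a4
        simp only [hτ, Pi.sub_apply, Pi.add_apply, mem_Icc]; push_cast; omega
      · rw [hAop']
        apply hA
        have hvec : ∀ p p' : Fin (k + 1) → ℤ, f p - f p' = L (fun i => ((p - p') i : ℝ)) := by
          intro p p'
          simp only [hf, add_sub_add_left_eq_sub, ← map_sub]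
          congr 1; funext i; simp
        simp only [hg, dist_eq_norm, hvec] at hg'
        have h0 := (real_inner_add_sub_eq_zero_iff _ _).2 hg'
        rw [real_inner_comm] at h0
        rw [← map_sub, ← map_add, hinner] at h0
        convert h0 using 6 ; simp [hτ]
    · intro uv _
      refine le_trans ?_ (le_of_eq (by rw [card_product, sq]) : (P ×ˢ P).card ≤ P.card ^ 2)
      refine card_le_card_of_injOn (fun q => (q.1.1, q.2.1)) ?_ ?_
      · intro q hq
        simp only [hG, hS, coe_filter, mem_filter, mem_product, Set.mem_ofPred_eq] at hq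
        simp only [coe_product, Set.mem_prod, mem_coe]
        exact ⟨hq.1.1.1.1, hq.1.1.2.1⟩
      · intro q hq q' hq' he
        simp only [coe_filter, Set.mem_ofPred_eq] at hq hq'
        simp only [Prod.mk.injEq] at he
        have e := hq.2.trans hq'.2.symm
        simp only [hτ, Prod.mk.injEq, he.1, he.2] at e
        obtain ⟨e1, e2⟩ := e
        refine Prod.ext (Prod.ext he.1 ?_) (Prod.ext he.2 ?_) <;> funext i
        · have a1 := congrFun e1 i; have a2 := congrFun e2 i
          simp only [Pi.sub_apply, Pi.add_apply] at a1 a2; omega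
        · have a1 := congrFun e1 i; have a2 := congrFun e2 i
          simp only [Pi.sub_apply, Pi.add_apply] at a1 a2; omega
  have hEle : (E.card : ℝ) ≤ C' * (T : ℝ) ^ (2 * k) := by
    have := henergy (4 * T) (by omega) Aop hAinj
    rw [hC', mul_assoc, ← mul_pow]; exact_mod_cast this
  -- the diagonal adds at most one value
  have himg : (S.image g).card ≤ 2 * (distances f P).card := by
    have hsub : S.image g ⊆ insert 0 (distances f P) := by
      intro y hy
      obtain ⟨s, hs, rfl⟩ := mem_image.1 hy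
      by_cases h : s.1 = s.2
      · simp [hg, h]
      · rw [hS, mem_product] at hs
        exact mem_insert_of_mem (mem_image.2 ⟨s, mem_offDiag.2 ⟨hs.1, hs.2, h⟩, rfl⟩)
    have := (card_le_card hsub).trans (card_insert_le _ _)
    have hpos : 0 < (distances f P).card := by
      obtain ⟨a, ha, b', hb', hab⟩ := one_lt_card.1 (show 1 < P.card by omega)
      exact card_pos.2 ⟨_, mem_image.2 ⟨(a, b'), mem_offDiag.2 ⟨ha, hb', hab⟩, rfl⟩⟩
    omega
  have hn0 : (0 : ℝ) < P.card := by exact_mod_cast (show 0 < P.card by omega)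
  have hkey : ((P.card : ℝ) ^ 2) ^ 2 ≤
      (2 * (distances f P).card) * ((P.card : ℝ) ^ 2 * (C' * (T : ℝ) ^ (2 * k))) := by
    have h1 : ((S.image g).card : ℝ) ≤ 2 * ((distances f P).card : ℝ) :=
      le_of_le_of_eq (Nat.cast_le.2 himg) (Nat.cast_mul 2 _)
    have h2 : (G.card : ℝ) ≤ (P.card : ℝ) ^ 2 * (E.card : ℝ) :=
      le_of_le_of_eq (Nat.cast_le.2 hGE) (by rw [Nat.cast_mul, Nat.cast_pow])
    refine hCS.trans (mul_le_mul h1 (h2.trans ?_) (Nat.cast_nonneg _)
      (mul_nonneg zero_le_two (Nat.cast_nonneg _)))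
    exact mul_le_mul_of_nonneg_left hEle (sq_nonneg _)
  rw [show 2 * (k + 1) - 2 = 2 * k by omega, div_le_iff₀ (by positivity), div_mul_eq_mul_div,
    one_mul, div_le_iff₀ (by positivity)]
  exact le_of_mul_le_mul_right (by linarith) (pow_pos hn0 2)

/-- Affine images of full grids obey the conjectured bound. -/
theorem full_affine_grid {d : ℕ} (hd : 3 ≤ d) : ∃ c : ℝ, 0 < c ∧
    ∀ (T : ℕ), 1 ≤ T → ∀ (L : (Fin d → ℝ) →ₗ[ℝ] EuclideanSpace ℝ (Fin d)), Function.Injective L →
    ∀ (x₀ : EuclideanSpace ℝ (Fin d)),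
      let P := Fintype.piFinset (fun _ : Fin d => Finset.Icc (-(T : ℤ)) T)
      c * (P.card : ℝ) ^ ((2 : ℝ) / d) ≤
        (distances (fun p => x₀ + L fun i => (p i : ℝ)) P).card := by
  obtain ⟨c, hc, h⟩ := affine_grid_distances hd
  refine ⟨c / 9, by positivity, fun T hT L hL x₀ => ?_⟩
  intro P
  have hcard : P.card = (2 * T + 1) ^ d := by
    simp only [P, Fintype.card_piFinset_const, Int.card_Icc]
    congr 1; omega
  refine le_trans ?_ (h T hT L hL x₀ P (fun p hp i => ?_) ?_)
  · rw [hcard]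
    push_cast
    rw [← Real.rpow_natCast (2 * (T : ℝ) + 1) d, ← Real.rpow_mul (by positivity),
      mul_div_cancel₀ _ (show (d : ℝ) ≠ 0 by positivity), Real.rpow_natCast, Real.rpow_two,
      le_div_iff₀ (by positivity)]
    have hT1 : (1 : ℝ) ≤ T := by exact_mod_cast hT
    have h1 : (2 * (T : ℝ) + 1) ^ 2 ≤ 9 * (T : ℝ) ^ 2 := by nlinarith
    have h2 : (T : ℝ) ^ (2 * d) ≤ ((2 * (T : ℝ) + 1) ^ d) ^ 2 := by
      rw [← pow_mul, mul_comm d 2]; exact pow_le_pow_left₀ (by positivity) (by linarith) _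
    calc c / 9 * (2 * (T : ℝ) + 1) ^ 2 * (T : ℝ) ^ (2 * d - 2)
        ≤ c / 9 * (9 * (T : ℝ) ^ 2) * (T : ℝ) ^ (2 * d - 2) := by gcongr
      _ = c * (T : ℝ) ^ (2 * d) := by
          conv_rhs => rw [show 2 * d = 2 + (2 * d - 2) by omega, pow_add]
          ring
      _ ≤ _ := mul_le_mul_of_nonneg_left h2 hc.le
  · have := Finset.mem_Icc.1 (Fintype.mem_piFinset.1 hp i)
    rw [abs_le]; exact this
  · rw [hcard]
    calc 2 ≤ 2 * T + 1 := by omega
      _ ≤ _ := Nat.le_self_pow (by omega) _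

end Vale.Agent.P054
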